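import Vale.Agent.P275.H490.Defs

/-!
# The divisor sum
-/

set_option autoImplicit false

namespace Vale.Agent.P275.H909

open scoped BigOperators Topology
open Filter Vale.Agent.P275.H341 Vale.Agent.P275.H490

theorem t1_add {f f' : ℕ → ℂ} {N : ℕ} {a b a' b' : ℂ} (h : T1 f N a b) (h' : T1 f' N a' b') :
    T1 (fun q => f q + f' q) N (a + a') (b + b') := by
  unfold T1 at *
  refine (h.add h').congr fun q => ?_
  ring

theorem t1_smul {f : ℕ → ℂ} {N : ℕ} {a b : ℂ} (c : ℂ) (h : T1 f N a b) :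
    T1 (fun q => c * f q) N (c * a) (c * b) := by
  unfold T1 at *
  refine (h.const_mul c).congr fun q => ?_
  ring

theorem t1_zero (N : ℕ) : T1 (fun _ => 0) N 0 0 := by
  unfold T1
  simp

theorem t1_sum {ι : Type} (s : Finset ι) {f : ι → ℕ → ℂ} {N : ℕ} {a b : ι → ℂ}
    (h : ∀ i ∈ s, T1 (f i) N (a i) (b i)) :
    T1 (fun q => ∑ i ∈ s, f i q) N (∑ i ∈ s, a i) (∑ i ∈ s, b i) := by
  classical
  induction s using Finset.induction_on with
  | empty => simpa using t1_zero N
  | insert i s hi ih =>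
    have h1 := ih fun j hj => h j (Finset.mem_insert_of_mem hj)
    have h2 := h i (Finset.mem_insert_self i s)
    simp only [Finset.sum_insert hi]
    exact t1_add h2 h1

theorem t1_lower {f : ℕ → ℂ} {N N' : ℕ} {a b : ℂ} (hN : N + 2 ≤ N') (h : T1 f N a b) :
    T1 f N' 0 0 := by
  unfold T1 at *
  obtain ⟨r, rfl⟩ : ∃ r, N' = N + 2 + r := ⟨N' - (N + 2), by omega⟩
  have hinv : Tendsto (fun q : ℕ => ((q : ℂ))⁻¹) atTop (𝓝 0) := tendsto_inv_atTop_nhds_zero_nat (𝕜 := ℂ)
  have h1 : Tendsto (fun q : ℕ => ((f q / (q : ℂ) ^ N - a) * q * ((q : ℂ)⁻¹) ^ 2 + a * (q : ℂ)⁻¹)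
      * ((q : ℂ)⁻¹) ^ r) atTop (𝓝 ((b * 0 ^ 2 + a * 0) * 0 ^ r)) :=
    ((h.mul (hinv.pow 2)).add (hinv.const_mul a)).mul (hinv.pow r)
  have h2 : (b * 0 ^ 2 + a * 0) * (0 : ℂ) ^ r = 0 := by simp
  rw [h2] at h1
  refine h1.congr' ?_
  filter_upwards [eventually_gt_atTop 0] with q hq
  have hq' : (q : ℂ) ≠ 0 := by exact_mod_cast hq.ne'
  rw [sub_zero, pow_add, pow_add, inv_pow, inv_pow]
  have hr : (q : ℂ) ^ r ≠ 0 := pow_ne_zero _ hq'
  field_simp
  ring

theorem sum_moebius {m : ℕ} (hm : 2 ≤ m) :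
    ∑ d ∈ m.divisors, ((ArithmeticFunction.moebius d : ℤ) : ℂ) = 0 := by
  have h := congrArg (fun F => F m) ArithmeticFunction.moebius_mul_coe_zeta
  simp only [ArithmeticFunction.coe_mul_zeta_apply] at h
  rw [ArithmeticFunction.one_apply_ne (by omega)] at h
  exact_mod_cast h

theorem rowSUM : RowSUM := by
  intro n m g f hn hmn hm hg hf
  have hmn2 : m ≤ n := Nat.le_of_dvd hn hmn
  have hn0 : (n : ℂ) ≠ 0 := by exact_mod_cast (by omega : n ≠ 0)
  set N := (g - 1) * (n * (n / m + 1)) with hN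
  have key : ∀ d ∈ n.divisors, T1 (fun q => ((ArithmeticFunction.moebius d : ℤ) : ℂ) * f d q) N
      (((ArithmeticFunction.moebius d : ℤ) : ℂ) * (if d ∣ m then ((n / m : ℕ) : ℂ) else 0))
      (((ArithmeticFunction.moebius d : ℤ) : ℂ) * (if d = 1 then -((n : ℂ) * (2 * g - 2)) else 0)) := by
    intro d hd
    have hdn : d ∣ n := (Nat.mem_divisors.1 hd).1
    refine t1_smul _ ?_
    by_cases h : d ∣ m
    · have h1 := hf d hdn
      rw [Nat.lcm_eq_left h] at h1
      rw [if_pos h]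
      exact h1
    · have hd1 : d ≠ 1 := by rintro rfl; exact h (one_dvd m)
      rw [if_neg h, if_neg hd1]
      refine t1_lower ?_ (hf d hdn)
      have hl : Nat.lcm m d ∣ n := Nat.lcm_dvd hmn hdn
      have hl1 : m ∣ Nat.lcm m d := Nat.dvd_lcm_left m d
      have hne : Nat.lcm m d ≠ m := fun h2 => h (h2 ▸ Nat.dvd_lcm_right m d)
      have hlpos : 0 < Nat.lcm m d := Nat.pos_of_dvd_of_pos hl hn
      have hlt : m < Nat.lcm m d := lt_of_le_of_ne (Nat.le_of_dvd hlpos hl1) (Ne.symm hne)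
      have hdiv : n / Nat.lcm m d < n / m := by
        obtain ⟨c, hc⟩ := hl
        obtain ⟨e, he⟩ := hmn
        have h3 : n / Nat.lcm m d = c := by
          conv_lhs => rw [hc]
          exact Nat.mul_div_cancel_left c hlpos
        have h4 : n / m = e := by
          conv_lhs => rw [he]
          exact Nat.mul_div_cancel_left e (by omega)
        rw [h3, h4]
        have hc0 : 0 < c := by
          rcases Nat.eq_zero_or_pos c with h5 | h5
          · rw [h5] at hc; omega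
          · exact h5
        by_contra h6
        have h7 : m * e ≤ m * c := Nat.mul_le_mul_left m (by omega)
        have h8 : m * c < Nat.lcm m d * c := Nat.mul_lt_mul_of_pos_right hlt hc0
        omega
      obtain ⟨G, hG⟩ : ∃ G, g - 1 = G + 1 := ⟨g - 2, by omega⟩
      rw [hN, hG]
      have h9 : n * (n / Nat.lcm m d + 1) + n ≤ n * (n / m + 1) := by
        have : n / Nat.lcm m d + 1 + 1 ≤ n / m + 1 := by omega
        calc n * (n / Nat.lcm m d + 1) + n = n * (n / Nat.lcm m d + 1 + 1) := by ring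
          _ ≤ _ := Nat.mul_le_mul_left n this
      have h10 : (G + 1) * (n * (n / Nat.lcm m d + 1)) + (G + 1) * n ≤ (G + 1) * (n * (n / m + 1)) := by
        rw [← Nat.mul_add]
        exact Nat.mul_le_mul_left _ h9
      have h11 : n ≤ (G + 1) * n := Nat.le_mul_of_pos_left n (Nat.succ_pos G)
      omega
  have h1 := t1_smul (1 / (n : ℂ)) (t1_sum n.divisors key)
  have ha : ∑ d ∈ n.divisors, (((ArithmeticFunction.moebius d : ℤ) : ℂ) *
      (if d ∣ m then ((n / m : ℕ) : ℂ) else 0)) = 0 := by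
    have h2 : ∑ d ∈ n.divisors, (((ArithmeticFunction.moebius d : ℤ) : ℂ) *
        (if d ∣ m then ((n / m : ℕ) : ℂ) else 0))
        = ∑ d ∈ n.divisors.filter (· ∣ m), ((ArithmeticFunction.moebius d : ℤ) : ℂ) * ((n / m : ℕ) : ℂ) := by
      rw [Finset.sum_filter]
      refine Finset.sum_congr rfl fun d _ => ?_
      split_ifs <;> simp
    have h3 : n.divisors.filter (· ∣ m) = m.divisors := by
      ext d
      simp only [Finset.mem_filter, Nat.mem_divisors]
      constructor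
      · rintro ⟨-, h⟩; exact ⟨h, by omega⟩
      · rintro ⟨h, -⟩; exact ⟨⟨h.trans hmn, by omega⟩, h⟩
    rw [h2, h3, ← Finset.sum_mul, sum_moebius hm, zero_mul]
  have hb : ∑ d ∈ n.divisors, (((ArithmeticFunction.moebius d : ℤ) : ℂ) *
      (if d = 1 then -((n : ℂ) * (2 * g - 2)) else 0)) = -((n : ℂ) * (2 * g - 2)) := by
    rw [Finset.sum_eq_single 1]
    · simp
    · intro d _ hd
      rw [if_neg hd, mul_zero]
    · intro h
      exact absurd (Nat.mem_divisors.2 ⟨one_dvd n, by omega⟩) h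
  rw [ha, hb, mul_zero] at h1
  have h5 : 1 / (n : ℂ) * -((n : ℂ) * (2 * g - 2)) = -(2 * g - 2) := by field_simp
  rw [h5] at h1
  exact h1

end Vale.Agent.P275.H909
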